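import Vale.Agent.Lib.P160.Main
open Finset Filter Topology

namespace Vale.Agent.Lib.P160

theorem asymptotic (ε : ℝ) (hε : 0 < ε) :
    ∀ᶠ n : ℕ in atTop, (1 - ε) * (n : ℝ) ^ 2 / 2 ^ n ≤ q n := by
  have t1 : Tendsto (fun n : ℕ => (n : ℝ) ^ 2 / (2 : ℝ) ^ n) atTop (𝓝 0) :=
    tendsto_pow_const_div_const_pow_of_one_lt 2 (by norm_num)
  have t2 : Tendsto (fun n : ℕ => 1 / (n : ℝ)) atTop (𝓝 0) := tendsto_one_div_atTop_nhds_zero_nat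
  have e1 : ∀ᶠ n : ℕ in atTop, (n : ℝ) ^ 2 / (2 : ℝ) ^ n < ε / 2 :=
    t1.eventually (gt_mem_nhds (by positivity))
  have e2 : ∀ᶠ n : ℕ in atTop, 1 / (n : ℝ) < ε / 2 :=
    t2.eventually (gt_mem_nhds (by positivity))
  filter_upwards [e1, e2, eventually_ge_atTop 1] with n h1 h2 h3
  refine le_trans ?_ (main n)
  have hn : (1 : ℝ) ≤ n := by exact_mod_cast h3
  have hp : (0 : ℝ) < 2 ^ n := by positivity
  have hpow : (2 : ℝ) ^ (2 * n) = 2 ^ n * 2 ^ n := by rw [two_mul, pow_add]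
  rw [hpow]
  have h1' : (n : ℝ) ^ 2 < ε / 2 * 2 ^ n := by rwa [div_lt_iff₀ hp] at h1
  have h2' : 1 < ε / 2 * n := by rwa [div_lt_iff₀ (by linarith)] at h2
  rw [div_sub_div _ _ hp.ne' (by positivity), div_le_div_iff₀ hp (by positivity)]
  have hM : (n : ℝ) * (n - 1) * ((n : ℝ) * (n - 1) - 1) ≤ (n : ℝ) ^ 2 * (n : ℝ) ^ 2 := by
    have a1 : 0 ≤ (n : ℝ) * (n - 1) := by nlinarith
    have a2 : (n : ℝ) * (n - 1) ≤ (n : ℝ) ^ 2 := by nlinarith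
    nlinarith
  have hM2 : (n : ℝ) ^ 2 * (n : ℝ) ^ 2 ≤ (n : ℝ) ^ 2 * (ε / 2 * 2 ^ n) := by
    apply mul_le_mul_of_nonneg_left h1'.le (by positivity)
  have hM3 : (n : ℝ) ≤ ε / 2 * (n : ℝ) ^ 2 := by nlinarith
  have key : (1 - ε) * (n : ℝ) ^ 2 * 2 ^ n ≤
      (n : ℝ) * (n - 1) * 2 ^ n - (n : ℝ) * (n - 1) * ((n : ℝ) * (n - 1) - 1) := by
    have : (n : ℝ) * 2 ^ n ≤ ε / 2 * (n : ℝ) ^ 2 * 2 ^ n :=
      mul_le_mul_of_nonneg_right hM3 hp.le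
    nlinarith
  have hpp : (0 : ℝ) < 2 ^ n * 2 ^ n := by positivity
  calc (1 - ε) * (n : ℝ) ^ 2 * (2 ^ n * (2 ^ n * 2 ^ n))
      = ((1 - ε) * (n : ℝ) ^ 2 * 2 ^ n) * (2 ^ n * 2 ^ n) := by ring
    _ ≤ ((n : ℝ) * (n - 1) * 2 ^ n - (n : ℝ) * (n - 1) * ((n : ℝ) * (n - 1) - 1)) *
          (2 ^ n * 2 ^ n) := mul_le_mul_of_nonneg_right key hpp.le
    _ = _ := by ring

end Vale.Agent.Lib.P160
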