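import Vale.Agent.Lib.P160.Defs
open Finset

namespace Vale.Agent.Lib.P160

/-- row `u` equals `s` times row `v`. -/
def Ev (n : ℕ) (u v : Fin n) (s : ℤˣ) (a : Sym2 (Fin n) → ℤˣ) : Prop :=
  ∀ m, a s(u, m) = s * a s(v, m)

theorem Ev_symm (n : ℕ) (u v : Fin n) (s : ℤˣ) (a : Sym2 (Fin n) → ℤˣ) (h : Ev n u v s a) :
    Ev n v u s a := by
  intro m
  rw [h m, ← mul_assoc, Int.units_mul_self, one_mul]

theorem exists_Ev (n : ℕ) (u v : Fin n) (huv : u ≠ v) (s : ℤˣ) : ∃ b, Ev n u v s b := by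
  classical
  refine ⟨fun z => if (u ∈ z ∧ v ∉ z) ∨ z = s(v, v) then s else 1, ?_⟩
  intro m
  have hvu : v ≠ u := huv.symm
  by_cases hmu : m = u
  · subst hmu
    simp [Sym2.mem_iff, Sym2.eq_iff, huv, hvu]
  · by_cases hmv : m = v
    · subst hmv
      simp [Sym2.mem_iff, Sym2.eq_iff, huv, hvu]
    · have h1 : u ≠ m := fun h => hmu h.symm
      have h2 : v ≠ m := fun h => hmv h.symm
      simp [Sym2.mem_iff, Sym2.eq_iff, huv, hvu, hmu, hmv, h1, h2]

theorem units_aux : ∀ x y x0 y0 : ℤˣ, x * y = x0 * y0 → x * x0 = y * y0 := by decide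

theorem card_Ev_ge (n : ℕ) (u v : Fin n) (huv : u ≠ v) (s : ℤˣ) :
    Fintype.card (Sym2 (Fin n) → ℤˣ) ≤
      2 ^ n * (by classical exact (univ.filter (Ev n u v s)).card) := by
  classical
  obtain ⟨b, hb⟩ := exists_Ev n u v huv s
  let φ : (Sym2 (Fin n) → ℤˣ) → (Fin n → ℤˣ) := fun a m => a s(u, m) * a s(v, m)
  have h1 : (univ : Finset (Sym2 (Fin n) → ℤˣ)).card =
      ∑ t : Fin n → ℤˣ, (univ.filter (fun a => φ a = t)).card :=
    Finset.card_eq_sum_card_fiberwise (fun a _ => mem_univ _)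
  have h2 : ∀ t, (univ.filter (fun a => φ a = t)).card ≤ (univ.filter (Ev n u v s)).card := by
    intro t
    rcases (univ.filter (fun a => φ a = t)).eq_empty_or_nonempty with h | ⟨a0, ha0⟩
    · rw [h]; simp
    · apply Finset.card_le_card_of_injOn (fun a => a * a0 * b)
      · intro a ha
        simp only [coe_filter, mem_univ, true_and, Set.mem_ofPred_eq, mem_filter] at ha ha0 ⊢
        intro m
        have e1 : a s(u, m) * a s(v, m) = a0 s(u, m) * a0 s(v, m) := by
          have := congrFun ha m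
          have h' := congrFun ha0 m
          simp only [φ] at this h'
          rw [this, h']
        have e2 := units_aux _ _ _ _ e1
        simp only [Pi.mul_apply]
        rw [e2, hb m]
        ac_rfl
      · intro a _ a' _ h
        simpa using h
  calc Fintype.card (Sym2 (Fin n) → ℤˣ) = (univ : Finset (Sym2 (Fin n) → ℤˣ)).card := rfl
    _ = ∑ t : Fin n → ℤˣ, (univ.filter (fun a => φ a = t)).card := h1
    _ ≤ ∑ _t : Fin n → ℤˣ, (univ.filter (Ev n u v s)).card := Finset.sum_le_sum (fun t _ => h2 t)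
    _ = 2 ^ n * (univ.filter (Ev n u v s)).card := by
      rw [Finset.sum_const, smul_eq_mul, Finset.card_univ, Fintype.card_fun]
      simp


theorem det_eq_zero_of_Ev (n : ℕ) (u v : Fin n) (huv : u ≠ v) (s : ℤˣ) (a : Sym2 (Fin n) → ℤˣ)
    (h : Ev n u v s a) : (symMat n a).det = 0 := by
  have hs : (((s : ℤˣ) : ℤ) : ℝ) ≠ 0 := by
    have := Int.units_eq_one_or s
    rcases this with rfl | rfl <;> simp
  have h1 : (Matrix.updateRow (symMat n a) v ((((s : ℤˣ) : ℤ) : ℝ) • (symMat n a v))).det = 0 := by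
    apply Matrix.det_zero_of_row_eq huv
    rw [Matrix.updateRow_ne huv, Matrix.updateRow_self]
    ext m
    simp only [symMat, Matrix.of_apply, Pi.smul_apply, smul_eq_mul]
    rw [h m]
    push_cast
    ring
  rw [Matrix.det_updateRow_smul, Matrix.updateRow_eq_self] at h1
  exact (mul_eq_zero.mp h1).resolve_left hs


theorem determined (n : ℕ) (x y x' y' : Fin n) (s s' : ℤˣ)
    (h3 : x ≠ x') (h1 : x ≠ y) (h2 : x' ≠ y') (h4 : x ≠ y') (h5 : x' ≠ y)
    (a b : Sym2 (Fin n) → ℤˣ) (ha : Ev n x y s a) (ha' : Ev n x' y' s' a)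
    (hb : Ev n x y s b) (hb' : Ev n x' y' s' b)
    (hab : ∀ z : Sym2 (Fin n), x ∉ z → x' ∉ z → a z = b z) : a = b := by
  -- case 2
  have c2 : ∀ m, m ≠ x → m ≠ x' → a s(x, m) = b s(x, m) := by
    intro m hm hm'
    rw [ha m, hb m, hab]
    · simp [Sym2.mem_iff, h1, hm.symm]
    · simp [Sym2.mem_iff, h5, hm'.symm]
  have c3 : ∀ m, m ≠ x → m ≠ x' → a s(x', m) = b s(x', m) := by
    intro m hm hm'
    rw [ha' m, hb' m, hab]
    · simp [Sym2.mem_iff, h4, hm.symm]
    · simp [Sym2.mem_iff, h2, hm'.symm]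
  have c4 : a s(x, x) = b s(x, x) := by
    rw [ha x, hb x, Sym2.eq_swap, c2 y h1.symm h5.symm]
  have c5 : a s(x', x') = b s(x', x') := by
    rw [ha' x', hb' x', Sym2.eq_swap, c3 y' h4.symm h2.symm]
  have c6 : a s(x, x') = b s(x, x') := by
    rw [ha x', hb x', Sym2.eq_swap, c3 y h1.symm h5.symm]
  funext z
  induction z using Sym2.ind with
  | _ p r =>
    by_cases hp : p = x
    · subst hp
      by_cases hr : r = p
      · subst hr; exact c4
      · by_cases hr' : r = x'
        · subst hr'; exact c6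
        · exact c2 r hr hr'
    · by_cases hp' : p = x'
      · subst hp'
        by_cases hr : r = x
        · subst hr; rw [Sym2.eq_swap]; exact c6
        · by_cases hr' : r = p
          · subst hr'; exact c5
          · exact c3 r hr hr'
      · by_cases hr : r = x
        · subst hr; rw [Sym2.eq_swap]; exact c2 p hp hp'
        · by_cases hr' : r = x'
          · subst hr'; rw [Sym2.eq_swap]; exact c3 p hp hp'
          · apply hab
            · simp [Sym2.mem_iff, Ne.symm hp, Ne.symm hr]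
            · simp [Sym2.mem_iff, Ne.symm hp', Ne.symm hr']

theorem card_nonfree (n : ℕ) (x x' : Fin n) (h3 : x ≠ x') :
    2 * n - 1 ≤ (by classical exact
      (univ.filter (fun z : Sym2 (Fin n) => x ∈ z ∨ x' ∈ z)).card) := by
  classical
  have hsub : (univ.image (fun m => s(x, m))) ∪ ((univ.erase x).image (fun m => s(x', m))) ⊆
      univ.filter (fun z : Sym2 (Fin n) => x ∈ z ∨ x' ∈ z) := by
    intro z hz
    rw [mem_union, mem_image, mem_image] at hz
    rw [mem_filter]
    refine ⟨mem_univ _, ?_⟩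
    rcases hz with ⟨m, _, rfl⟩ | ⟨m, _, rfl⟩
    · left; simp
    · right; simp
  have hdisj : Disjoint (univ.image (fun m => s(x, m)))
      ((univ.erase x).image (fun m => s(x', m))) := by
    rw [Finset.disjoint_left]
    intro z hz hz'
    rw [mem_image] at hz hz'
    obtain ⟨m, _, rfl⟩ := hz
    obtain ⟨m', hm', h⟩ := hz'
    rw [mem_erase] at hm'
    rw [Sym2.eq_iff] at h
    rcases h with ⟨h, _⟩ | ⟨_, h⟩
    · exact h3 h.symm
    · exact hm'.1 h
  have hc1 : (univ.image (fun m : Fin n => s(x, m))).card = n := by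
    rw [Finset.card_image_of_injective]
    · simp
    · intro m m' h
      have h' : s(x, m) = s(x, m') := h
      rw [Sym2.eq_iff] at h'
      rcases h' with ⟨_, h'⟩ | ⟨h1, h2⟩
      · exact h'
      · rw [h2, ← h1]
  have hc2 : ((univ.erase x).image (fun m : Fin n => s(x', m))).card = n - 1 := by
    rw [Finset.card_image_of_injective]
    · simp
    · intro m m' h
      have h' : s(x', m) = s(x', m') := h
      rw [Sym2.eq_iff] at h'
      rcases h' with ⟨_, h'⟩ | ⟨h1, h2⟩
      · exact h'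
      · rw [h2, ← h1]
  have := Finset.card_le_card hsub
  rw [Finset.card_union_of_disjoint hdisj, hc1, hc2] at this
  omega

theorem card_inter_le (n : ℕ) (x y x' y' : Fin n) (s s' : ℤˣ)
    (h3 : x ≠ x') (h1 : x ≠ y) (h2 : x' ≠ y') (h4 : x ≠ y') (h5 : x' ≠ y) :
    (by classical exact
      (univ.filter (fun a => Ev n x y s a ∧ Ev n x' y' s' a)).card) * 2 ^ (2 * n - 1) ≤
      Fintype.card (Sym2 (Fin n) → ℤˣ) := by
  classical
  set NF : Finset (Sym2 (Fin n)) := univ.filter (fun z : Sym2 (Fin n) => x ∈ z ∨ x' ∈ z) with hNF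
  have hnf : 2 * n - 1 ≤ NF.card := by
    have := card_nonfree n x x' h3
    convert this
  have hle : (univ.filter (fun a => Ev n x y s a ∧ Ev n x' y' s' a)).card ≤
      Fintype.card ({z // z ∈ NFᶜ} → ℤˣ) := by
    rw [← Finset.card_univ]
    apply Finset.card_le_card_of_injOn (fun a z => a z.1)
    · intro a _; exact mem_univ _
    · intro a ha b hb hab
      simp only [coe_filter, mem_univ, true_and, Set.mem_ofPred_eq] at ha hb
      apply determined n x y x' y' s s' h3 h1 h2 h4 h5 a b ha.1 ha.2 hb.1 hb.2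
      intro z hz hz'
      have hzm : z ∈ NFᶜ := by
        rw [mem_compl, hNF, mem_filter]
        push Not
        intro _
        exact ⟨hz, hz'⟩
      exact congrFun hab ⟨z, hzm⟩
  have hcard : Fintype.card ({z // z ∈ NFᶜ} → ℤˣ) = 2 ^ (NFᶜ.card) := by
    rw [Fintype.card_fun]; simp [Finset.card_compl]
  have hG : Fintype.card (Sym2 (Fin n) → ℤˣ) = 2 ^ (NFᶜ.card) * 2 ^ NF.card := by
    rw [Fintype.card_fun, ← pow_add, Fintype.card_units_int]
    congr 1
    rw [Finset.card_compl]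
    have := Finset.card_le_univ NF
    omega
  rw [hG]
  calc _ ≤ 2 ^ (NFᶜ.card) * 2 ^ (2 * n - 1) := Nat.mul_le_mul_right _ (hcard ▸ hle)
    _ ≤ _ := Nat.mul_le_mul_left _ (Nat.pow_le_pow_right (by norm_num) hnf)




theorem nat_aux (k : ℕ) (hk : 1 ≤ k) : 2 * (k : ℝ) ≤ 2 + ((k : ℝ) * k - k) := by
  rcases Nat.lt_or_ge k 2 with h | h
  · have : k = 1 := by omega
    subst this; norm_num
  · have h2 : (2 : ℝ) ≤ k := by exact_mod_cast h
    nlinarith

theorem bonferroni {G I : Type*} [Fintype G] [DecidableEq G] [Fintype I] [DecidableEq I]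
    (E : I → Finset G) (U : Finset G) (hU : ∀ i, E i ⊆ U) :
    2 * ∑ i, ((E i).card : ℝ) ≤
      2 * (U.card : ℝ) + ∑ i, ∑ j ∈ univ.erase i, ((E i ∩ E j).card : ℝ) := by
  have e1 : ∀ i, ((E i).card : ℝ) = ∑ a : G, (if a ∈ E i then (1 : ℝ) else 0) := by
    intro i
    rw [Finset.sum_boole]
    congr 2
    ext a; simp
  have e2 : ∀ i j, ((E i ∩ E j).card : ℝ) =
      ∑ a : G, (if a ∈ E i then (1 : ℝ) else 0) * (if a ∈ E j then (1 : ℝ) else 0) := by
    intro i j
    have : ∀ a : G, (if a ∈ E i then (1 : ℝ) else 0) * (if a ∈ E j then (1 : ℝ) else 0) =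
        if a ∈ E i ∩ E j then (1 : ℝ) else 0 := by
      intro a
      by_cases h1 : a ∈ E i <;> by_cases h2 : a ∈ E j <;> simp [h1, h2]
    simp_rw [this]
    rw [Finset.sum_boole]
    congr 2
    ext a; simp
  have e3 : (U.card : ℝ) = ∑ a : G, (if a ∈ U then (1 : ℝ) else 0) := by
    rw [Finset.sum_boole]
    congr 2
    ext a; simp
  simp_rw [e1, e2]
  rw [e3, Finset.sum_comm]
  have e4 : ∑ i, ∑ j ∈ univ.erase i, ∑ a : G,
      (if a ∈ E i then (1 : ℝ) else 0) * (if a ∈ E j then (1 : ℝ) else 0) =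
      ∑ a : G, ∑ i, ∑ j ∈ univ.erase i,
      (if a ∈ E i then (1 : ℝ) else 0) * (if a ∈ E j then (1 : ℝ) else 0) := by
    rw [Finset.sum_comm]
    apply Finset.sum_congr rfl
    intro i _
    rw [Finset.sum_comm]
  rw [e4, Finset.mul_sum, Finset.mul_sum, ← Finset.sum_add_distrib]
  apply Finset.sum_le_sum
  intro a _
  set c : ℝ := ∑ i, (if a ∈ E i then (1 : ℝ) else 0) with hc
  have hc' : c = ((univ.filter (fun i => a ∈ E i)).card : ℝ) := by
    rw [hc, Finset.sum_boole]
  have e5 : ∑ i, ∑ j ∈ univ.erase i,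
      (if a ∈ E i then (1 : ℝ) else 0) * (if a ∈ E j then (1 : ℝ) else 0) = c * c - c := by
    have : ∀ i, ∑ j ∈ univ.erase i,
      (if a ∈ E i then (1 : ℝ) else 0) * (if a ∈ E j then (1 : ℝ) else 0) =
      (if a ∈ E i then (1 : ℝ) else 0) * c - (if a ∈ E i then (1 : ℝ) else 0) := by
      intro i
      rw [← Finset.mul_sum, Finset.sum_erase_eq_sub (mem_univ i), ← hc]
      by_cases h : a ∈ E i <;> simp [h]
    simp_rw [this]
    rw [Finset.sum_sub_distrib, ← Finset.sum_mul]
  rw [e5]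
  rcases Nat.eq_zero_or_pos (univ.filter (fun i => a ∈ E i)).card with h0 | hpos
  · rw [hc', h0]
    by_cases h : a ∈ U <;> simp [h]
  · have hne : (univ.filter (fun i => a ∈ E i)).Nonempty := Finset.card_pos.mp hpos
    obtain ⟨i, hi⟩ := hne
    rw [mem_filter] at hi
    have haU : a ∈ U := hU i hi.2
    rw [if_pos haU, hc']
    have := nat_aux _ hpos
    linarith


end Vale.Agent.Lib.P160
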