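import Mathlib

namespace Vale.Agent.Lib.P160

/-- The symmetric sign matrix whose `(i,j)` entry is the sign `a s(i,j)` attached to the
unordered pair `s(i,j)` (pairs with `i = j` give the diagonal). -/
def symMat (n : ℕ) (a : Sym2 (Fin n) → ℤˣ) : Matrix (Fin n) (Fin n) ℝ :=
  Matrix.of fun i j => (((a s(i, j) : ℤˣ) : ℤ) : ℝ)

open Classical in
/-- `q n`: the probability that the uniformly random symmetric `n × n` sign matrix is singular,
that is the number of sign assignments on and above the diagonal with vanishing determinant
divided by the number of all sign assignments. -/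
noncomputable def q (n : ℕ) : ℝ :=
  ((Finset.univ.filter (fun a : Sym2 (Fin n) → ℤˣ => (symMat n a).det = 0)).card : ℝ) /
    (Fintype.card (Sym2 (Fin n) → ℤˣ) : ℝ)

end Vale.Agent.Lib.P160
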