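import Vale.Agent.Lib.P160.Count
open Finset

namespace Vale.Agent.Lib.P160

theorem card_inter_le' (n : ℕ) (u v u' v' : Fin n) (s s' : ℤˣ) (huv : u ≠ v) (hu'v' : u' ≠ v')
    (hne : ¬ (u = u' ∧ v = v')) (hne' : ¬ (u = v' ∧ v = u')) :
    (by classical exact
      (univ.filter (fun a => Ev n u v s a ∧ Ev n u' v' s' a)).card) * 2 ^ (2 * n - 1) ≤
      Fintype.card (Sym2 (Fin n) → ℤˣ) := by
  classical
  by_cases h1 : u = u'
  · have hv : v ≠ v' := fun h => hne ⟨h1, h⟩
    have := card_inter_le n v u v' u' s s' hv huv.symm hu'v'.symm (h1 ▸ huv.symm)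
      (h1 ▸ hu'v'.symm)
    refine le_trans (Nat.mul_le_mul_right _ (Finset.card_le_card ?_)) (by convert this)
    intro a ha
    rw [mem_filter] at ha ⊢
    exact ⟨mem_univ _, Ev_symm _ _ _ _ _ ha.2.1, Ev_symm _ _ _ _ _ ha.2.2⟩
  · by_cases h2 : u = v'
    · have hv : v ≠ u' := fun h => hne' ⟨h2, h⟩
      have := card_inter_le n v u u' v' s s' hv huv.symm hu'v' (h2 ▸ huv.symm) (Ne.symm h1)
      refine le_trans (Nat.mul_le_mul_right _ (Finset.card_le_card ?_)) (by convert this)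
      intro a ha
      rw [mem_filter] at ha ⊢
      exact ⟨mem_univ _, Ev_symm _ _ _ _ _ ha.2.1, ha.2.2⟩
    · by_cases h3 : u' = v
      · have := card_inter_le n u v v' u' s s' h2 huv hu'v'.symm h1 (h3 ▸ hu'v'.symm)
        refine le_trans (Nat.mul_le_mul_right _ (Finset.card_le_card ?_)) (by convert this)
        intro a ha
        rw [mem_filter] at ha ⊢
        exact ⟨mem_univ _, ha.2.1, Ev_symm _ _ _ _ _ ha.2.2⟩
      · have := card_inter_le n u v u' v' s s' h1 huv hu'v' h2 h3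
        convert this

theorem inter_empty (n : ℕ) (u v : Fin n) (s : ℤˣ) (a : Sym2 (Fin n) → ℤˣ)
    (h : Ev n u v s a) (h' : Ev n v u (-s) a) : False := by
  have h2 := Ev_symm _ _ _ _ _ h'
  have e := (h u).symm.trans (h2 u)
  have e2 : s = -s := mul_right_cancel e
  have key : ∀ t : ℤˣ, t ≠ -t := by decide
  exact key s e2

/-- sign attached to an ordered pair -/
def sgn (n : ℕ) (p : Fin n × Fin n) : ℤˣ := if p.1 < p.2 then 1 else -1

theorem main (n : ℕ) :
    (n : ℝ) * (n - 1) / 2 ^ n - (n : ℝ) * (n - 1) * ((n : ℝ) * (n - 1) - 1) / 2 ^ (2 * n) ≤ q n := by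
  classical
  rcases Nat.eq_zero_or_pos n with h0 | hn
  · subst h0
    simp only [Nat.cast_zero, zero_mul, zero_div, sub_zero]
    unfold q
    positivity
  let I := {p // p ∈ (univ : Finset (Fin n)).offDiag}
  have hIcard : (Fintype.card I : ℝ) = (n : ℝ) * (n - 1) := by
    rw [Fintype.card_coe, Finset.offDiag_card]
    simp only [Finset.card_univ, Fintype.card_fin]
    rw [Nat.cast_sub (Nat.le_mul_self n)]
    push_cast; ring
  set U : Finset (Sym2 (Fin n) → ℤˣ) := univ.filter (fun a => (symMat n a).det = 0) with hU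
  let E : I → Finset (Sym2 (Fin n) → ℤˣ) := fun p => univ.filter (Ev n p.1.1 p.1.2 (sgn n p.1))
  have hne : ∀ p : I, p.1.1 ≠ p.1.2 := by
    intro p
    have := p.2
    rw [Finset.mem_offDiag] at this
    exact this.2.2
  have hEU : ∀ p, E p ⊆ U := by
    intro p a ha
    simp only [E, mem_filter, mem_univ, true_and] at ha
    rw [hU, mem_filter]
    exact ⟨mem_univ _, det_eq_zero_of_Ev n _ _ (hne p) _ a ha⟩
  have hB := bonferroni E U hEU
  set g : ℝ := (Fintype.card (Sym2 (Fin n) → ℤˣ) : ℝ) with hg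
  have hgpos : 0 < g := by
    rw [hg]; exact_mod_cast Fintype.card_pos
  have hlow : ∀ p, g / 2 ^ n ≤ ((E p).card : ℝ) := by
    intro p
    have := card_Ev_ge n p.1.1 p.1.2 (hne p) (sgn n p.1)
    rw [div_le_iff₀ (by positivity)]
    have h2 : (Fintype.card (Sym2 (Fin n) → ℤˣ) : ℝ) ≤ ((2 ^ n * (E p).card : ℕ) : ℝ) := by
      exact_mod_cast (by convert this)
    rw [hg]
    push_cast at h2
    linarith
  have hup : ∀ p, ∀ p' ∈ univ.erase p, ((E p ∩ E p').card : ℝ) ≤ g / 2 ^ (2 * n - 1) := by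
    intro p p' hp'
    rw [mem_erase] at hp'
    have hpp : p' ≠ p := hp'.1
    rw [le_div_iff₀ (by positivity)]
    have hfil : E p ∩ E p' = univ.filter
        (fun a => Ev n p.1.1 p.1.2 (sgn n p.1) a ∧ Ev n p'.1.1 p'.1.2 (sgn n p'.1) a) := by
      ext a; simp [E]
    by_cases hsw : p.1.1 = p'.1.2 ∧ p.1.2 = p'.1.1
    · have hemp : E p ∩ E p' = ∅ := by
        rw [hfil, Finset.filter_eq_empty_iff]
        intro a _ hcon
        obtain ⟨c1, c2⟩ := hcon
        rw [← hsw.1, ← hsw.2] at c2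
        have hs : sgn n p'.1 = - sgn n p.1 := by
          unfold sgn
          rw [← hsw.1, ← hsw.2]
          have := hne p
          rcases lt_or_gt_of_ne this with h | h
          · rw [if_pos h, if_neg (not_lt.mpr h.le)]
          · rw [if_neg (not_lt.mpr h.le), if_pos h]; simp
        rw [hs] at c2
        exact inter_empty n _ _ _ a c1 c2
      rw [hemp]
      simp
      positivity
    · have hne2 : ¬ (p.1.1 = p'.1.1 ∧ p.1.2 = p'.1.2) := by
        intro h
        apply hpp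
        apply Subtype.ext
        exact (Prod.ext h.1 h.2).symm
      have := card_inter_le' n p.1.1 p.1.2 p'.1.1 p'.1.2 (sgn n p.1) (sgn n p'.1) (hne p) (hne p')
        hne2 hsw
      rw [hfil, hg]
      exact_mod_cast (by convert this)
  have hsum1 : (n : ℝ) * (n - 1) * (g / 2 ^ n) ≤ ∑ p, ((E p).card : ℝ) := by
    calc (n : ℝ) * (n - 1) * (g / 2 ^ n) = ∑ _p : I, g / 2 ^ n := by
          rw [Finset.sum_const, nsmul_eq_mul, Finset.card_univ, hIcard]
      _ ≤ _ := Finset.sum_le_sum (fun p _ => hlow p)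
  have hsum2 : ∑ p, ∑ p' ∈ univ.erase p, ((E p ∩ E p').card : ℝ) ≤
      (n : ℝ) * (n - 1) * (((n : ℝ) * (n - 1) - 1) * (g / 2 ^ (2 * n - 1))) := by
    calc _ ≤ ∑ p : I, ∑ _p' ∈ univ.erase p, g / 2 ^ (2 * n - 1) :=
          Finset.sum_le_sum (fun p _ => Finset.sum_le_sum (hup p))
      _ = ∑ _p : I, (((n : ℝ) * (n - 1) - 1) * (g / 2 ^ (2 * n - 1))) := by
          apply Finset.sum_congr rfl
          intro p _
          rw [Finset.sum_const, nsmul_eq_mul, Finset.card_erase_of_mem (mem_univ p),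
            Finset.card_univ]
          have hpos : 1 ≤ Fintype.card I := Fintype.card_pos_iff.mpr ⟨p⟩
          rw [Nat.cast_sub hpos, hIcard]
          simp
      _ = _ := by
          rw [Finset.sum_const, nsmul_eq_mul, Finset.card_univ, hIcard]
  have hpow : (2 : ℝ) ^ (2 * n) = 2 * 2 ^ (2 * n - 1) := by
    rw [← pow_succ']
    congr 1
    omega
  have hq : q n = (U.card : ℝ) / g := rfl
  rw [hq, le_div_iff₀ hgpos, hpow]
  have h2n : (0 : ℝ) < 2 ^ (2 * n - 1) := by positivity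
  have hn2 : (0 : ℝ) < 2 ^ n := by positivity
  have key : 2 * ((n : ℝ) * (n - 1) * (g / 2 ^ n)) ≤ 2 * (U.card : ℝ) +
      (n : ℝ) * (n - 1) * (((n : ℝ) * (n - 1) - 1) * (g / 2 ^ (2 * n - 1))) := by
    linarith
  have e1 : ((n : ℝ) * (n - 1) / 2 ^ n -
      (n : ℝ) * (n - 1) * ((n : ℝ) * (n - 1) - 1) / (2 * 2 ^ (2 * n - 1))) * g =
      (n : ℝ) * (n - 1) * (g / 2 ^ n) -
      ((n : ℝ) * (n - 1) * (((n : ℝ) * (n - 1) - 1) * (g / 2 ^ (2 * n - 1)))) / 2 := by
    field_simp
  rw [e1]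
  linarith

end Vale.Agent.Lib.P160
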